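import Vale.Agent.P241.H933.ActStab
import Vale.Agent.P251.H.FlatStab

/-!
# P241, Borel equivariant stable homotopy

For a good class `V` of weak equivalences of `M` (a `StabInput` category) and a group `G`, the
class `Wf V` of the equivariant maps whose underlying map is in `V` is a good class of
weak equivalences of `Action M G`; an object with flat underlying object is flat.
-/

open CategoryTheory MonoidalCategory Limits

namespace Vale.Agent.P241.H354

open Vale.Agent.P251.G Vale.Agent.P251.G.LC Vale.Agent.P251.H Vale.Agent.P241.H933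
open Vale.Agent.P251.H.StabInput LP

universe v u

set_option linter.unusedSectionVars false

variable {M : Type u} [Category.{v} M] [MonoidalCategory M] [SymmetricCategory M]
    [MonoidalClosed M] [HasZeroMorphisms M] [HasColimitsOfSize.{0, 0} M] [StabInput M]
  {G : Type} [Group G]

theorem J_obj_V (K : LC) : ((J (Action M G)).obj K).V = (J M).obj K := rfl

theorem inc_hom (t : unitInterval) (X : Action M G) : (inc t X).hom = inc t X.V :=
  jincl_hom t X

theorem mHtpy_hom {X Y : Action M G} {f g : X ⟶ Y} (h : MHtpy f g) : MHtpy f.hom g.hom := by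
  obtain ⟨H, h0, h1⟩ := h
  refine ⟨H.hom, ?_, ?_⟩
  · exact (congrArg (· ≫ H.hom) (inc_hom 0 X)).symm.trans (congrArg Action.Hom.hom h0)
  · exact (congrArg (· ≫ H.hom) (inc_hom 1 X)).symm.trans (congrArg Action.Hom.hom h1)

/-- the underlying map of an equivariant h-cofibration is an h-cofibration -/
theorem hCof_hom {A B : Action M G} {i : A ⟶ B} (hi : HCof i) : HCof i.hom := by
  have hp : IsPushout i (inc 0 A) (pushout.inl i (inc 0 A)) (pushout.inr i (inc 0 A)) :=
    IsPushout.of_hasPushout _ _
  obtain ⟨K, h1, h2⟩ := hi _ (pushout.inl i (inc 0 A)) (pushout.inr i (inc 0 A)) hp.w.symm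
  have hq := hp.map (Action.forget M G)
  intro Z f H e
  have e' : (Action.forget M G).map i ≫ f = (Action.forget M G).map (inc 0 A) ≫ H :=
    e.symm.trans (congrArg (· ≫ H) (inc_hom 0 A)).symm
  refine ⟨K.hom ≫ hq.desc f H e', ?_, ?_⟩
  · have h3 : (inc 0 B).hom ≫ K.hom = (pushout.inl i (inc 0 A)).hom :=
      congrArg Action.Hom.hom h1
    refine (Category.assoc (inc 0 B.V) K.hom _).symm.trans ?_
    refine (congrArg (· ≫ hq.desc f H e') (congrArg (· ≫ K.hom) (inc_hom 0 B).symm)).trans ?_
    exact (congrArg (· ≫ hq.desc f H e') h3).trans (hq.inl_desc f H e')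
  · have h3 : (i ▷ I (Action M G)).hom ≫ K.hom = (pushout.inr i (inc 0 A)).hom :=
      congrArg Action.Hom.hom h2
    refine (Category.assoc (i.hom ▷ I M) K.hom _).symm.trans ?_
    exact (congrArg (· ≫ hq.desc f H e') h3).trans (hq.inr_desc f H e')

instance : PreservesColimitsOfSize.{0, 0} (Action.forget M G) where
  preservesColimitsOfShape := inferInstance

theorem isCofibre_hom {A B Q : Action M G} {i : A ⟶ B} {q : B ⟶ Q} (h : IsCofibre i q) :
    IsCofibre i.hom q.hom :=
  h.mapFunctor (Action.forget M G)

variable (V : MorphismProperty M)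

/-- the equivariant maps whose underlying map is in `V` -/
abbrev Wf (G : Type) [Group G] : MorphismProperty (Action M G) :=
  V.inverseImage (Action.forget M G)

variable {V} in
theorem wf_iff {X Y : Action M G} (f : X ⟶ Y) : Wf V G f ↔ V f.hom := Iff.rfl

/-- **The underlying equivalences form a good class.** -/
instance goodW_Wf [hV : GoodW V] : GoodW (Wf V G) where
  isIso f _ := by
    have : IsIso ((Action.forget M G).map f) := inferInstance
    exact hV.isIso ((Action.forget M G).map f)
  comp f g hf hg := hV.comp f.hom g.hom hf hg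
  left f g hf hg := hV.left f.hom g.hom hf hg
  right f g hf hg := hV.right f.hom g.hom hf hg
  htpy h hf := hV.htpy (mHtpy_hom h) hf
  hequiv f g h1 h2 := hV.hequiv f.hom g.hom (mHtpy_hom h1) (mHtpy_hom h2)
  sigma {ι X Y} f h := by
    have h1 := hV.sigma (fun i => (f i).hom) h
    have e : (Limits.Sigma.map f).hom ≫ (sigmaV Y).hom =
        (sigmaV X).hom ≫ Limits.Sigma.map (fun i => (f i).hom) := by
      rw [← cancel_epi (sigmaV X).inv, Iso.inv_hom_id_assoc]
      apply Sigma.hom_ext
      intro i
      rw [← Category.assoc, ι_sigmaV, ← Action.comp_hom_assoc, Sigma.ι_map, Action.comp_hom,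
        Category.assoc, Sigma.ι_map, ← ι_sigmaV, Category.assoc, Iso.inv_hom_id, Category.comp_id]
    exact ((flatInput V).W_iff_of_iso _ _ (sigmaV X) (sigmaV Y) e).mpr h1
  tensorS f h := hV.tensorS f.hom h
  tensorL f h := hV.tensorL f.hom h
  five hi hq hi' hq' a b c w₁ w₂ := hV.five (hCof_hom hi) (isCofibre_hom hq) (hCof_hom hi')
    (isCofibre_hom hq') a.hom b.hom c.hom (congrArg Action.Hom.hom w₁)
    (congrArg Action.Hom.hom w₂)

/-- **An object with flat underlying object is flat.** -/
theorem flat_Wf {X : Action M G} (h : Flat V X.V) : Flat (Wf V G) X :=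
  fun _ _ f hf => h f.hom hf

theorem wf_lam (h : V (lam : (L : M) ⊗ (J M).obj RR ⟶ 𝟙_ M)) :
    Wf V G (lam : (L : Action M G) ⊗ (J (Action M G)).obj RR ⟶ 𝟙_ (Action M G)) := h

/-- the stable model of flat objects with an action of `G` -/
noncomputable def flatModelG (G : Type) [Group G] [GoodW V]
    (h : V (lam : (L : M) ⊗ (J M).obj RR ⟶ 𝟙_ M)) :
    StabModel (FlatCat (Wf V G)) :=
  flatModel (Wf V G) h

end Vale.Agent.P241.H354
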