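import Vale.Agent.P241.H354.Pts
import Vale.Agent.P241.H354.Borel

/-!
# P241: induced objects

`Gsp G : Action LC G` is the finite group `G` with the left translations.  Equivariant maps
`Z ⊗ J G ⟶ X` correspond to maps `Z ⟶ X` of underlying objects (`freeHom_bij`); the same for
homotopy classes and stable homotopy classes (`freePi_bij`).
-/

open CategoryTheory MonoidalCategory Limits Functor.LaxMonoidal Functor.OplaxMonoidal

namespace Vale.Agent.P241.H354

open Vale.Agent.P251.G Vale.Agent.P251.G.LC Vale.Agent.P251.H Vale.Agent.P241.H933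
open Vale.Agent.P251.H.StabInput LP

universe v u

set_option linter.unusedSectionVars false

section spaces

variable (G : Type) [Group G]

/-- the discrete space `G` -/
def GLC (G : Type) : LC :=
  letI : TopologicalSpace G := ⊥
  haveI : DiscreteTopology G := ⟨rfl⟩
  LC.of G

/-- the points of the discrete space `G` -/
def el {G : Type} (g : G) : (GLC G).carrier := g

variable {G} in
/-- left translation -/
def lmul (g : G) : GLC G ≅ GLC G :=
  letI : TopologicalSpace G := ⊥
  haveI : DiscreteTopology G := ⟨rfl⟩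
  LC.ofHomeo (X := LC.of G) (Y := LC.of G)
    ⟨Equiv.mulLeft g, continuous_of_discreteTopology, continuous_of_discreteTopology⟩

variable {G} in
theorem app_lmul (g x : G) : app (lmul g).hom (OnePoint.some (el x)) =
    OnePoint.some (el (g * x)) := rfl

/-- the group `G` with the action by left translations -/
def Gsp : Action LC G where
  V := GLC G
  ρ :=
    { toFun := fun g => (lmul g).hom
      map_one' := by
        apply LC.hom_ext
        intro x
        exact congrArg (fun y : G => OnePoint.some (el y)) (one_mul (show G from x))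
      map_mul' := fun g h => by
        apply LC.hom_ext
        intro x
        exact congrArg (fun y : G => OnePoint.some (el y)) (mul_assoc g h (show G from x)) }

theorem point_lmul {G : Type} [Group G] (g x : G) :
    point (el x) ≫ (lmul g).hom = point (el (g * x)) := by
  apply LC.hom_ext
  intro y
  rfl

end spaces

variable {M : Type u} [Category.{v} M] [MonoidalCategory M] [SymmetricCategory M]
    [MonoidalClosed M] [HasZeroMorphisms M] [HasColimitsOfSize.{0, 0} M] [StabInput M]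
  {G : Type} [Group G]

variable (M G) in
/-- spaces with an action of `G` -/
abbrev JW : Action LC G ⥤ Action M G := (J M).mapAction G

theorem JW_map_hom {K K' : Action LC G} (f : K ⟶ K') : ((JW M G).map f).hom = (J M).map f.hom :=
  rfl

variable (M G) in
/-- the free orbit -/
abbrev GP : Action M G := (JW M G).obj (Gsp G)

/-- the inclusion of `C` at the point `g` of `G` -/
def pg (C : M) (g : G) : C ⟶ C ⊗ (J M).obj (GLC G) := ptMap C (el g)

theorem pg_nat {C D : M} (f : C ⟶ D) (g : G) :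
    f ≫ pg D g = pg C g ≫ f ▷ (J M).obj (GLC G) := ptMap_nat f (el g)

theorem pg_lmul (C : M) (g h : G) : pg C h ≫ C ◁ (J M).map (lmul g).hom = pg C (g * h) :=
  ptMap_map C (el h) (el (g * h)) _ (point_lmul g h)

/-- the action on `Z ⊗ J G` -/
def gact (Z : Action M G) (g : G) : Z.V ⊗ (J M).obj (GLC G) ⟶ Z.V ⊗ (J M).obj (GLC G) :=
  (Z ⊗ GP M G).ρ g

theorem pg_act (Z : Action M G) (g h : G) :
    pg Z.V h ≫ gact Z g = Z.ρ g ≫ pg Z.V (g * h) := by
  have h1 : gact Z g = (Z.ρ g : Z.V ⟶ Z.V) ▷ (J M).obj (GLC G) ≫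
      Z.V ◁ (J M).map (lmul g).hom := tensorHom_def _ _
  rw [h1, ← Category.assoc, ← pg_nat, Category.assoc, pg_lmul]

/-- the underlying map of an equivariant map `Z ⊗ J G ⟶ X` -/
def uhom {Z X : Action M G} (f : Z ⊗ GP M G ⟶ X) : Z.V ⊗ (J M).obj (GLC G) ⟶ X.V := f.hom

theorem uhom_comm {Z X : Action M G} (f : Z ⊗ GP M G ⟶ X) (g : G) :
    gact Z g ≫ uhom f = uhom f ≫ X.ρ g := f.comm g

/-- the restriction of an equivariant map `Z ⊗ J G ⟶ X` to `1` -/
def freeHom {Z X : Action M G} (f : Z ⊗ GP M G ⟶ X) : Z.V ⟶ X.V :=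
  pg Z.V 1 ≫ uhom f

theorem ρ_inv (Z : Action M G) (g : G) : (Z.ρ g⁻¹ : Z.V ⟶ Z.V) ≫ Z.ρ g = 𝟙 Z.V := by
  have := (Z.ρ.map_mul g g⁻¹).symm
  rw [mul_inv_cancel, map_one] at this
  exact this

theorem ρ_comp (Z : Action M G) (g h : G) : (Z.ρ h : Z.V ⟶ Z.V) ≫ Z.ρ g = Z.ρ (g * h) :=
  (Z.ρ.map_mul g h).symm

theorem ρ_one' (Z : Action M G) : (Z.ρ 1 : Z.V ⟶ Z.V) = 𝟙 Z.V := Z.ρ.map_one

theorem free_comp {Z X : Action M G} (f : Z ⊗ GP M G ⟶ X) (g : G) :
    pg Z.V g ≫ uhom f = (Z.ρ g⁻¹ : Z.V ⟶ Z.V) ≫ freeHom f ≫ X.ρ g := by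
  rw [freeHom, Category.assoc, ← uhom_comm, ← Category.assoc (pg Z.V 1), pg_act, mul_one,
    Category.assoc, ← Category.assoc (Z.ρ g⁻¹ : Z.V ⟶ Z.V), ρ_inv, Category.id_comp]

theorem pg_bij [Finite G] (C X : M) :
    Function.Bijective (fun (f : C ⊗ (J M).obj (GLC G) ⟶ X) (g : G) => pg C g ≫ f) := by
  let _ : TopologicalSpace G := ⊥
  have : DiscreteTopology G := ⟨rfl⟩
  exact pts_bij (M := M) G C X

theorem freeHom_bij [Finite G] (Z X : Action M G) :
    Function.Bijective (freeHom : (Z ⊗ GP M G ⟶ X) → (Z.V ⟶ X.V)) := by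
  have b := pg_bij (M := M) (G := G) Z.V X.V
  constructor
  · intro f f' h
    apply Action.Hom.ext
    apply b.1
    funext g
    refine (free_comp f g).trans ?_
    rw [h]
    exact (free_comp f' g).symm
  · intro y
    obtain ⟨f, hf⟩ := b.2 (fun g => (Z.ρ g⁻¹ : Z.V ⟶ Z.V) ≫ y ≫ X.ρ g)
    have hf' : ∀ g : G, pg Z.V g ≫ f = (Z.ρ g⁻¹ : Z.V ⟶ Z.V) ≫ y ≫ X.ρ g := congrFun hf
    refine ⟨⟨f, fun g => ?_⟩, ?_⟩
    · apply b.1
      funext h
      change pg Z.V h ≫ gact Z g ≫ f = pg Z.V h ≫ f ≫ X.ρ g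
      rw [← Category.assoc, pg_act, Category.assoc, hf', ← Category.assoc (pg Z.V h), hf',
        ← Category.assoc (Z.ρ g : Z.V ⟶ Z.V), ρ_comp, mul_inv_rev, inv_mul_cancel_right,
        Category.assoc, Category.assoc, ρ_comp]
    · change pg Z.V 1 ≫ f = y
      rw [hf', inv_one, ρ_one', ρ_one', Category.id_comp, Category.comp_id]

theorem freeHom_comp {Z X Y : Action M G} (f : Z ⊗ GP M G ⟶ X) (g : X ⟶ Y) :
    freeHom (f ≫ g) = freeHom f ≫ g.hom :=
  (Category.assoc _ _ _).symm

theorem freeHom_whisker {Z Z' X : Action M G} (a : Z ⟶ Z') (f : Z' ⊗ GP M G ⟶ X) :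
    freeHom (a ▷ GP M G ≫ f) = a.hom ≫ freeHom f := by
  have h := pg_nat (G := G) a.hom 1
  rw [freeHom, freeHom, ← Category.assoc, h, Category.assoc]
  rfl

end Vale.Agent.P241.H354
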