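import Vale.Agent.P241.H354.Free
import Vale.Agent.P251.H.Exact

/-!
# P241: stable homotopy classes out of induced objects

`freePi_bij`: stable classes of equivariant maps `Z ⊗ J G ⟶ X` are the stable classes of maps
of the underlying objects `Z ⟶ X`.
-/

open CategoryTheory MonoidalCategory Limits Functor.LaxMonoidal Functor.OplaxMonoidal

namespace Vale.Agent.P241.H354

open Vale.Agent.P251.G Vale.Agent.P251.G.LC Vale.Agent.P251.H Vale.Agent.P241.H933
open Vale.Agent.P251.H.StabInput LP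

universe v u v' u'

set_option linter.unusedSectionVars false

section abstract

variable {K : Type u} [Category.{v} K] {K' : Type u'} [Category.{v'} K']
  {P : CoPt K} {P' : CoPt K'} (Q : CoPtMap P P')

/-- A bijectivity criterion for `P'.comap b ∘ Q.pi`. -/
theorem comap_pi_bijective {A : K} {B : K'} (b : B ⟶ Q.G.obj A) (X : K)
    (h : ∀ k, Function.Bijective
      (fun x : P.pw k A ⟶ X => P'.pwMap k b ≫ Q.Θ k A ≫ Q.G.map x)) :
    Function.Bijective (fun x : P.Pi A X => P'.comap b (Q.G.obj X) (Q.pi A X x)) := by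
  constructor
  · intro x y hxy
    obtain ⟨k, x, y, rfl, rfl⟩ := CoPt.cl_surj₂ x y
    simp only [CoPtMap.pi_cl, CoPt.comap_cl] at hxy
    rw [CoPt.cl_eq_iff'] at hxy
    obtain ⟨m, hkm, e⟩ := hxy
    rw [← P'.tr_nat_assoc, ← P'.tr_nat_assoc] at e
    rw [CoPt.cl_eq_iff']
    refine ⟨m, hkm, (h m).1 ?_⟩
    change _ ≫ _ ≫ _ = _ ≫ _ ≫ _
    rw [Q.G.map_comp, Q.G.map_comp, Q.Θ_tr_assoc, Q.Θ_tr_assoc]
    exact e
  · intro y
    obtain ⟨k, y, rfl⟩ := CoPt.cl_surj y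
    obtain ⟨x, hx⟩ := (h k).2 y
    exact ⟨P.cl k x, congrArg (P'.cl k) hx⟩

/-- If all `θ` are isomorphisms, so are the `Θ`. -/
theorem _root_.Vale.Agent.P251.H.CoPtMap.isIso_Θ (h : ∀ A, IsIso (Q.θ A)) (k : ℕ) (A : K) :
    IsIso (Q.Θ k A) := by
  induction k with
  | zero =>
    rw [CoPtMap.Θ_zero]
    infer_instance
  | succ k ih =>
    have := h (P.pw k A)
    rw [CoPtMap.Θ_succ]
    infer_instance

variable (R : CoPtMap P P) (p : ∀ W : K, Q.G.obj W ⟶ Q.G.obj (R.G.obj W))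
  (hU : ∀ W, P'.F.map (p W) ≫ Q.θ (R.G.obj W) ≫ Q.G.map (R.θ W) = Q.θ W ≫ p (P.F.obj W))

include hU in
theorem pwMap_nat (k : ℕ) (Z : K) :
    P'.pwMap k (p Z) ≫ Q.Θ k (R.G.obj Z) ≫ Q.G.map (R.Θ k Z) = Q.Θ k Z ≫ p (P.pw k Z) := by
  induction k with
  | zero => simp
  | succ k ih =>
    rw [CoPtMap.Θ_succ, CoPtMap.Θ_succ, CoPtMap.Θ_succ, Q.G.map_comp, CoPt.pwMap_succ]
    have h1 := Q.θ_nat (R.Θ k Z)
    have h2 := hU (P.pw k Z)
    have h3 := congrArg P'.F.map ih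
    rw [Functor.map_comp, Functor.map_comp, Functor.map_comp] at h3
    rw [Category.assoc, Category.assoc, ← reassoc_of% h1, reassoc_of% h3, h2]

include hU in
theorem pi_bijective_of_nat {Z : K} (hQ : ∀ k, IsIso (Q.Θ k Z)) (hR : ∀ k, IsIso (R.Θ k Z))
    (hp : ∀ W X : K, Function.Bijective (fun y : R.G.obj W ⟶ X => p W ≫ Q.G.map y)) (X : K) :
    Function.Bijective
      (fun x : P.Pi (R.G.obj Z) X => P'.comap (p Z) (Q.G.obj X) (Q.pi _ X x)) := by
  refine comap_pi_bijective Q (p Z) X (fun k => ?_)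
  have := hQ k
  have := hR k
  have e : (fun x : P.pw k (R.G.obj Z) ⟶ X =>
      P'.pwMap k (p Z) ≫ Q.Θ k (R.G.obj Z) ≫ Q.G.map x) =
      (fun z : Q.G.obj (P.pw k Z) ⟶ Q.G.obj X => Q.Θ k Z ≫ z) ∘
      (fun y : R.G.obj (P.pw k Z) ⟶ X => p (P.pw k Z) ≫ Q.G.map y) ∘
      (fun x : P.pw k (R.G.obj Z) ⟶ X => inv (R.Θ k Z) ≫ x) := by
    funext x
    have h := pwMap_nat Q R p hU k Z
    simp only [Function.comp_apply]
    rw [← Category.assoc (Q.Θ k Z), ← h]
    simp only [Category.assoc, ← Q.G.map_comp, IsIso.hom_inv_id_assoc]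
  rw [e]
  refine Function.Bijective.comp ?_ ((hp _ _).comp ?_)
  · exact ⟨fun a b h => (cancel_epi _).mp h, fun b => ⟨inv (Q.Θ k Z) ≫ b, by simp⟩⟩
  · exact ⟨fun a b h => (cancel_epi _).mp h, fun b => ⟨R.Θ k Z ≫ b, by simp⟩⟩

end abstract

variable {M : Type u} [Category.{v} M] [MonoidalCategory M] [SymmetricCategory M]
    [MonoidalClosed M] [HasZeroMorphisms M] [HasColimitsOfSize.{0, 0} M] [StabInput M]
  {G : Type} [Group G]

variable (M G) in
/-- the forgetful functor on the naive homotopy categories -/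
noncomputable def forgetHM : HM (Action M G) ⥤ HM M where
  obj X := ⟨X.obj.V⟩
  map {X Y} f := Quotient.map (sa := HM.setoid X.obj Y.obj) (sb := HM.setoid X.obj.V Y.obj.V)
    Action.Hom.hom (fun _ _ h => mHtpy_hom h) f
  map_id _ := rfl
  map_comp := by
    rintro X Y Z ⟨f⟩ ⟨g⟩
    rfl

theorem forgetHM_proj {X Y : Action M G} (f : X ⟶ Y) :
    (forgetHM M G).map ((HM.proj (Action M G)).map f) = (HM.proj M).map f.hom := rfl

theorem t_hom (A : Action M G) :
    (lamU (Action M G) ▷ A ≫ (λ_ A).hom).hom = lamU M ▷ A.V ≫ (λ_ A.V).hom := by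
  rw [Action.comp_hom, Action.whiskerRight_hom, Action.leftUnitor_hom_hom]
  rfl

variable (M G) in
/-- the forgetful functor commutes with the stabilization -/
noncomputable def forgetQ : CoPtMap (stab (Action M G)).coPt (stab M).coPt where
  G := forgetHM M G
  θ A := 𝟙 ((HM.proj M).obj (U M ⊗ A.obj.V))
  θ_nat := by
    rintro A B ⟨f⟩
    refine (Category.comp_id ((HM.proj M).map (U M ◁ f.hom))).trans ?_
    exact (Category.id_comp ((HM.proj M).map (U M ◁ f.hom))).symm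
  θ_t A := by
    have e : (forgetHM M G).map ((stab (Action M G)).coPt.t A) =
        (HM.proj M).map (lamU M ▷ A.obj.V ≫ (λ_ A.obj.V).hom) :=
      congrArg (HM.proj M).map (t_hom A.obj)
    exact (congrArg (𝟙 ((HM.proj M).obj (U M ⊗ A.obj.V)) ≫ ·) e).trans
      (Category.id_comp ((HM.proj M).map (lamU M ▷ A.obj.V ≫ (λ_ A.obj.V).hom)))

/-- homotopies out of induced objects -/
theorem mHtpy_of_freeHom [Finite G] {Z X : Action M G} {f f' : Z ⊗ GP M G ⟶ X}
    (h : MHtpy (freeHom f) (freeHom f')) : MHtpy f f' := by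
  obtain ⟨H, h0, h1⟩ := h
  obtain ⟨F, hF⟩ := (freeHom_bij (Z ⊗ I (Action M G)) X).2 H
  have key : ∀ t : unitInterval, freeHom (inc t (Z ⊗ GP M G) ≫
      (swapI Z (GP M G)).hom ≫ F) = inc t Z.V ≫ H := by
    intro t
    rw [← Category.assoc, inc_swapI, freeHom_whisker, hF]
    exact congrArg (· ≫ H) (inc_hom t Z)
  refine ⟨(swapI Z (GP M G)).hom ≫ F, (freeHom_bij Z X).1 ?_, (freeHom_bij Z X).1 ?_⟩
  · exact (key 0).trans h0
  · exact (key 1).trans h1

/-- the inclusion at `1 : G` -/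
noncomputable def p1 (W : HM (Action M G)) :
    (forgetHM M G).obj W ⟶ (forgetHM M G).obj (W ⊗ ⟨GP M G⟩) :=
  (HM.proj M).map (pg W.obj.V 1)

theorem p1_bij [Finite G] (W X : HM (Action M G)) :
    Function.Bijective (fun y : W ⊗ ⟨GP M G⟩ ⟶ X => p1 W ≫ (forgetHM M G).map y) := by
  constructor
  · rintro ⟨f⟩ ⟨f'⟩ h
    have h' : MHtpy (freeHom f) (freeHom f') :=
      (HM.proj_map_eq_iff (pg W.obj.V 1 ≫ uhom f) (pg W.obj.V 1 ≫ uhom f')).mp h
    exact HM.sound (mHtpy_of_freeHom h')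
  · rintro ⟨y⟩
    obtain ⟨f, hf⟩ := (freeHom_bij W.obj X.obj).2 y
    exact ⟨(HM.proj (Action M G)).map f, congrArg (HM.proj M).map hf⟩

theorem p1_nat {W W' : HM (Action M G)} (a : W ⟶ W') :
    (forgetHM M G).map a ≫ p1 W' = p1 W ≫ (forgetHM M G).map (a ▷ ⟨GP M G⟩) := by
  obtain ⟨a⟩ := a
  exact congrArg (HM.proj M).map (pg_nat (G := G) a.hom 1)

theorem pg_tensor (A C : M) (g : G) :
    A ◁ pg C g ≫ (α_ A C ((J M).obj (GLC G))).inv = pg (A ⊗ C) g := by
  rw [pg, pg, ptMap, ptMap, MonoidalCategory.whiskerLeft_comp, Category.assoc,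
    rightUnitor_tensor_inv, Category.assoc, associator_inv_naturality_right]

theorem p1_U (W : HM (Action M G)) :
    (stab M).coPt.F.map (p1 W) ≫ (forgetQ M G).θ (W ⊗ ⟨GP M G⟩) ≫
      (forgetHM M G).map (((stab (Action M G)).right ⟨GP M G⟩).θ W) =
      (forgetQ M G).θ W ≫ p1 ((stab (Action M G)).coPt.F.obj W) := by
  have e1 : (forgetHM M G).map (((stab (Action M G)).right ⟨GP M G⟩).θ W) =
      (HM.proj M).map (α_ (U M) W.obj.V ((J M).obj (GLC G))).inv :=
    congrArg (HM.proj M).map (Action.associator_inv_hom (U (Action M G)) W.obj (GP M G))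
  have e2 : (U M ◁ pg W.obj.V 1) ≫ 𝟙 (U M ⊗ (W.obj.V ⊗ (J M).obj (GLC G))) ≫
      (α_ (U M) W.obj.V ((J M).obj (GLC G))).inv =
        𝟙 (U M ⊗ W.obj.V) ≫ pg (G := G) (U M ⊗ W.obj.V) 1 := by
    rw [Category.id_comp, Category.id_comp, pg_tensor]
  refine (congrArg (fun z => (stab M).coPt.F.map (p1 W) ≫
    (forgetQ M G).θ (W ⊗ ⟨GP M G⟩) ≫ z) e1).trans ?_
  exact congrArg (HM.proj M).map e2

theorem isIso_forgetΘ (k : ℕ) (Z : HM (Action M G)) : IsIso ((forgetQ M G).Θ k Z) :=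
  (forgetQ M G).isIso_Θ (fun A => inferInstanceAs (IsIso (𝟙 ((HM.proj M).obj (U M ⊗ A.obj.V)))))
    k Z

/-- restriction of stable classes to `1 : G` -/
noncomputable def freePi (Z X : Action M G) (x : PiM (Z ⊗ GP M G) X) : PiM Z.V X.V :=
  (stab M).coPt.comap (p1 ⟨Z⟩) ((HM.proj M).obj X.V)
    ((forgetQ M G).pi ⟨Z ⊗ GP M G⟩ ⟨X⟩ x)

/-- **Stable classes out of induced objects.** -/
theorem freePi_bij [Finite G] (Z X : Action M G) : Function.Bijective (freePi Z X) :=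
  pi_bijective_of_nat (forgetQ M G) ((stab (Action M G)).right ⟨GP M G⟩) (fun W => p1 W) p1_U
    (fun k => isIso_forgetΘ k ⟨Z⟩)
    (fun k => ((stab (Action M G)).right ⟨GP M G⟩).isIso_Θ
      (fun A => inferInstanceAs (IsIso
        (α_ ((stab (Action M G)).U) A (⟨GP M G⟩ : HM (Action M G))).inv)) k ⟨Z⟩)
    (fun W X => p1_bij W X) ⟨X⟩

theorem freePi_map (Z : Action M G) {X Y : Action M G} (f : X ⟶ Y) (x : PiM (Z ⊗ GP M G) X) :
    freePi Z Y (mapM (Z ⊗ GP M G) f x) = mapM Z.V f.hom (freePi Z X x) := by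
  rw [freePi, freePi]
  refine (congrArg _ ((forgetQ M G).pi_map ⟨Z ⊗ GP M G⟩ ((HM.proj _).map f) x)).trans ?_
  exact ((stab M).coPt.map_comap _ _ _).symm

/-- induced objects invert the underlying equivalences -/
theorem bijective_mapM_free [Finite G] (Z : Action M G) {X Y : Action M G} (f : X ⟶ Y)
    (h : Function.Bijective (mapM Z.V f.hom)) : Function.Bijective (mapM (Z ⊗ GP M G) f) := by
  rw [← Function.Bijective.of_comp_iff' (freePi_bij Z Y)]
  have e : freePi Z Y ∘ mapM (Z ⊗ GP M G) f = mapM Z.V f.hom ∘ freePi Z X := by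
    funext x
    exact freePi_map Z f x
  rw [e]
  exact h.comp (freePi_bij Z X)

end Vale.Agent.P241.H354
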