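import Vale.Agent.P251.H.PuppeInst
import Vale.Agent.P251.H.FlatModel

/-!
# P241: test objects for a good class of weak equivalences

`N` is a `StabInput` category, `W` a good class of weak equivalences.  `Inv W A`: the stable
classes `PiM A -` invert `W`.  This class of objects is closed under extensions, suspensions,
desuspensions and retracts.
-/

open CategoryTheory MonoidalCategory Limits ZeroObject

namespace Vale.Agent.P241.H354

open Vale.Agent.P251.G Vale.Agent.P251.G.LC Vale.Agent.P251.H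
open Vale.Agent.P251.H.StabInput LP

universe v u

variable {N : Type u} [Category.{v} N] [MonoidalCategory N] [SymmetricCategory N]
    [MonoidalClosed N] [HasZeroMorphisms N] [HasColimitsOfSize.{0, 0} N] [StabInput N]

variable (W : MorphismProperty N)

/-- stable classes out of `A` invert `W` -/
def Inv (A : N) : Prop :=
  ∀ ⦃X Y : N⦄ (f : X ⟶ Y), W f → Function.Bijective (mapM A f)

/-- `C` is acyclic -/
def Acy (C : N) : Prop := W (0 : C ⟶ (0 : N))

/-- stable classes from `A` to acyclic objects are zero -/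
def Kill (A : N) : Prop := ∀ C : N, Acy W C → ∀ x : PiM A C, x = 0

variable {W}

theorem Inv.kill {A : N} (h : Inv W A) : Kill W A := fun _ hC _ =>
  (h _ hC).1 ((piM_subsingleton_of_isZero A (isZero_zero N) _).trans
    (piM_subsingleton_of_isZero A (isZero_zero N) _).symm)

variable [hW : GoodW W]

theorem Acy.of_W {X Y : N} (f : X ⟶ Y) (hf : W f) (h : Acy W X) : Acy W Y := by
  refine hW.left f (0 : Y ⟶ (0 : N)) hf ?_
  rw [comp_zero]
  exact h

theorem Acy.of_W' {X Y : N} (f : X ⟶ Y) (hf : W f) (h : Acy W Y) : Acy W X := by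
  have h1 := hW.comp f (0 : Y ⟶ (0 : N)) hf h
  rw [comp_zero] at h1
  exact h1

theorem acy_of_mHtpy {X : N} (h : MHtpy (𝟙 X) 0) : Acy W X := by
  refine hW.hequiv (0 : X ⟶ (0 : N)) (0 : (0 : N) ⟶ X) ?_ ?_
  · rw [comp_zero]
    exact h.symm
  · exact MHtpy.of_eq ((isZero_zero N).eq_of_src _ _)

theorem isCofibre_coneBase (X : N) : IsCofibre (coneBase X) (ccoll X) :=
  ⟨_, isZero_zero N, _, _, isPushout_ccoll X (isZero_zero N) 0 0⟩

/-- the cone of a weak equivalence is acyclic -/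
theorem acy_cone {X Y C : N} {f : X ⟶ Y} {k : X ⊗ CI N ⟶ C} {i : Y ⟶ C} {q : C ⟶ X ⊗ S N}
    (h : IsPushout (coneBase X) f k i) (hkq : k ≫ q = ccoll X) (hiq : i ≫ q = 0) (hf : W f) :
    Acy W C := by
  have hq : IsCofibre i q :=
    ⟨_, isZero_zero N, 0, 0, isPushout_collapse h hkq hiq (isZero_zero N) 0 0⟩
  have hk : W k := (hW.five (hCof_coneBase X) (isCofibre_coneBase X) (hCof_cone h) hq
    f k (𝟙 _) h.w (by rw [Category.comp_id, hkq])).2.2 hf (hW.isIso _)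
  exact Acy.of_W k hk (acy_of_mHtpy (mHtpy_id_cone X))

theorem acy_tensor_L {C : N} (h : Acy W C) : Acy W (C ⊗ (L : N)) := by
  have h1 := hW.tensorL _ h
  have hz : IsZero ((L : N) ⊗ (0 : N)) :=
    Vale.Agent.P251.H.isZero_tensor_left (isZero_zero N) (L : N)
  have : IsIso (0 : (L : N) ⊗ (0 : N) ⟶ (0 : N)) := hz.isIso (isZero_zero N) _
  refine Acy.of_W (β_ (L : N) C).hom (hW.isIso _) ?_
  exact Acy.of_W' _ h1 (hW.isIso (0 : (L : N) ⊗ (0 : N) ⟶ (0 : N)))

theorem right_pi_zero (Z A X : N) :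
    ((stab N).right ⟨Z⟩).pi (⟨A⟩ : HM N) ⟨X⟩ 0 = 0 := by
  change (stab N).coPt.cl 0 (((stab N).right ⟨Z⟩).Θ 0 ⟨A⟩ ≫
    ((HM.proj N).map (0 : A ⟶ X)) ▷ (⟨Z⟩ : HM N)) = 0
  rw [CoPtMap.Θ_zero]
  refine congrArg ((stab N).coPt.cl 0) ?_
  refine (Category.id_comp _).trans ?_
  exact congrArg (HM.proj N).map (zero_whiskerRight' (M := N) Z)

theorem Kill.tensor_S {A : N} (h : Kill W A) : Kill W (A ⊗ S N) := by
  intro C hC z
  let r : (⟨(A ⊗ S N) ⊗ (L : N)⟩ : HM N) ⟶ ⟨A⟩ :=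
    ((stab N).aug (stab N).S (stab N).L (β_ _ _)).r ⟨A⟩
  have hr : Function.Bijective ((stab N).coPt.comap r (⟨C ⊗ (L : N)⟩ : HM N)) :=
    ((stab N).aug (stab N).S (stab N).L (β_ _ _)).bij_comap ⟨A⟩ ⟨C ⊗ (L : N)⟩
  have key : ∀ w : PiM ((A ⊗ S N) ⊗ (L : N)) (C ⊗ (L : N)), w = 0 := by
    intro w
    obtain ⟨w', rfl⟩ := hr.2 w
    have h0 : w' = 0 := h _ (acy_tensor_L hC) w'
    rw [h0]
    exact (stab N).comap_zero _ _
  have hb := ((stab N).bijective_right_L ⟨A ⊗ S N⟩ ⟨C⟩).1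
  apply hb
  exact (key _).trans (right_pi_zero (L : N) (A ⊗ S N) C).symm

/-- **Objects whose stable classes kill acyclic objects invert the weak equivalences.** -/
theorem Kill.inv {A : N} (h : Kill W A) : Inv W A := by
  intro X Y f hf
  have hC := IsPushout.of_hasPushout (coneBase X) f
  obtain ⟨q, hkq, hiq⟩ := exists_collapse hC
  have hac := acy_cone hC hkq hiq hf
  constructor
  · rw [mapM_injective_iff]
    intro x hx
    have h1 : mapM (A ⊗ S N) (f ▷ S N) (((stab N).right (stab N).S).pi ⟨A⟩ ⟨X⟩ x) = 0 := by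
      refine ((stab N).right_pi_map (stab N).S ⟨A⟩ ((HM.proj N).map f) x).symm.trans ?_
      refine (congrArg (((stab N).right (stab N).S).pi ⟨A⟩ ⟨Y⟩) hx).trans ?_
      exact right_pi_zero (S N) A Y
    obtain ⟨z, hz⟩ := (ex_whiskerRight hC hkq hiq).exact (A ⊗ S N) _ h1
    rw [h.tensor_S _ hac z, mapM_map_zero] at hz
    apply ((stab N).bijective_right_S ⟨A⟩ ⟨X⟩).1
    exact hz.symm.trans (right_pi_zero (S N) A X).symm
  · intro y
    exact (ex_cone hC).exact A y (h _ hac _)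

theorem inv_iff_kill {A : N} : Inv W A ↔ Kill W A := ⟨Inv.kill, Kill.inv⟩

theorem acy_tensor_S {C : N} (h : Acy W C) : Acy W (C ⊗ S N) := by
  have h1 := hW.tensorS _ h
  have hz : IsZero (S N ⊗ (0 : N)) :=
    Vale.Agent.P251.H.isZero_tensor_left (isZero_zero N) (S N)
  have : IsIso (0 : S N ⊗ (0 : N) ⟶ (0 : N)) := hz.isIso (isZero_zero N) _
  refine Acy.of_W (β_ (S N) C).hom (hW.isIso _) ?_
  exact Acy.of_W' _ h1 (hW.isIso (0 : S N ⊗ (0 : N) ⟶ (0 : N)))

theorem Kill.tensor_L {A : N} (h : Kill W A) : Kill W (A ⊗ (L : N)) := by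
  intro C hC z
  let r : (⟨(A ⊗ (L : N)) ⊗ S N⟩ : HM N) ⟶ ⟨A⟩ :=
    ((stab N).aug (stab N).L (stab N).S (Iso.refl _)).r ⟨A⟩
  have hr : Function.Bijective ((stab N).coPt.comap r (⟨C ⊗ S N⟩ : HM N)) :=
    ((stab N).aug (stab N).L (stab N).S (Iso.refl _)).bij_comap ⟨A⟩ ⟨C ⊗ S N⟩
  have key : ∀ w : PiM ((A ⊗ (L : N)) ⊗ S N) (C ⊗ S N), w = 0 := by
    intro w
    obtain ⟨w', rfl⟩ := hr.2 w
    have h0 : w' = 0 := h _ (acy_tensor_S hC) w'
    rw [h0]
    exact (stab N).comap_zero _ _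
  have hb := ((stab N).bijective_right_S ⟨A ⊗ (L : N)⟩ ⟨C⟩).1
  apply hb
  exact (key _).trans (right_pi_zero (S N) (A ⊗ (L : N)) C).symm

omit hW in
theorem Kill.of_retract {A B : N} (h : Kill W A) (s : B ⟶ A) (r : A ⟶ B)
    (hsr : MHtpy (s ≫ r) (𝟙 B)) : Kill W B := by
  intro C hC x
  have h1 : comapM (s ≫ r) C x = x := by
    rw [comapM, HM.sound hsr]
    refine (congrArg (fun z => (stab N).coPt.comap z _ x) ((HM.proj N).map_id B)).trans ?_
    exact CoPt.comap_id _ _ _ x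
  rw [← h1, comapM, Functor.map_comp]
  refine ((stab N).coPt.comap_comp _ _ _ x).trans ?_
  refine (congrArg ((stab N).coPt.comap _ _) (h C hC (comapM r C x))).trans ?_
  exact (stab N).comap_zero _ _

omit hW in
theorem Kill.of_iso {A B : N} (h : Kill W A) (e : A ≅ B) : Kill W B :=
  h.of_retract e.inv e.hom (MHtpy.of_eq e.inv_hom_id)

/-- powers of `U ⊗ -` on morphisms of `N` -/
def pwN : (m : ℕ) → {A B : N} → (A ⟶ B) →
    (((stab N).coPt.pw m ((HM.proj N).obj A)).obj ⟶ ((stab N).coPt.pw m ((HM.proj N).obj B)).obj)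
  | 0, _, _, f => f
  | m + 1, _, _, f => U N ◁ pwN m f

theorem proj_pwN (m : ℕ) {A B : N} (f : A ⟶ B) :
    (HM.proj N).map (pwN m f) = (stab N).coPt.pwMap m ((HM.proj N).map f) := by
  induction m with
  | zero => rfl
  | succ m ih =>
    rw [CoPt.pwMap_succ, ← ih]
    rfl

theorem hCof_pwN (m : ℕ) {A B : N} {i : A ⟶ B} (h : HCof i) : HCof (pwN m i) := by
  induction m with
  | zero => exact h
  | succ m ih => exact ih.whiskerLeft (U N)

theorem isCofibre_pwN (m : ℕ) {A B Q : N} {i : A ⟶ B} {q : B ⟶ Q} (h : IsCofibre i q) :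
    IsCofibre (pwN m i) (pwN m q) := by
  induction m with
  | zero => exact h
  | succ m ih => exact isCofibre_whiskerLeft ih (U N)

theorem pwN_zero (m : ℕ) (A B : N) : pwN m (0 : A ⟶ B) = 0 := by
  induction m with
  | zero => rfl
  | succ m ih =>
    change U N ◁ pwN m (0 : A ⟶ B) = 0
    rw [ih, whiskerLeft_zero']

theorem exists_factor_cofibre {A B Q C : N} {i : A ⟶ B} {q : B ⟶ Q} (hi : HCof i)
    (hq : IsCofibre i q) (y : B ⟶ C) (h : MHtpy (i ≫ y) 0) :
    ∃ g : Q ⟶ C, MHtpy y (q ≫ g) := by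
  obtain ⟨H, h0, h1⟩ := h
  obtain ⟨K, k0, k1⟩ := hi C y H h0
  have e2 : i ≫ inc 1 _ ≫ K = 0 := by
    rw [← inc_naturality_assoc, k1, h1]
  obtain ⟨g, hg⟩ := hq.exists_desc _ e2
  refine ⟨g, ?_⟩
  rw [hg]
  exact ⟨K, k0, rfl⟩

omit hW in
theorem kill_of_isZero {A : N} (hA : IsZero A) : Kill W A := by
  intro C _ x
  obtain ⟨k, y, rfl⟩ := CoPt.cl_surj x
  have h1 : comapM (0 : A ⟶ A) C ((stab N).coPt.cl k y) = (stab N).coPt.cl k y := by
    rw [← hA.eq_of_src (𝟙 A) 0, comapM, CategoryTheory.Functor.map_id]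
    refine (congrArg (fun z => (stab N).coPt.comap z (⟨C⟩ : HM N) _) ((HM.proj N).map_id A)).trans ?_
    exact (stab N).coPt.comap_id _ _ _
  rw [← h1]
  change (stab N).coPt.cl k ((stab N).coPt.pwMap k ((HM.proj N).map (0 : A ⟶ A)) ≫ y) = 0
  have h2 : (stab N).coPt.pwMap k ((HM.proj N).map (0 : A ⟶ A)) = 0 := by
    rw [← proj_pwN, pwN_zero]
    rfl
  rw [h2, zero_comp]
  exact (stab N).cl_zero (⟨A⟩ : HM N) (⟨C⟩ : HM N) k

omit hW in
/-- **Extensions.** -/
theorem Kill.ext {A B Q : N} {i : A ⟶ B} {q : B ⟶ Q} (hi : HCof i) (hq : IsCofibre i q)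
    (hA : Kill W A) (hQ : Kill W Q) : Kill W B := by
  intro C hC b
  obtain ⟨k, x, rfl⟩ := CoPt.cl_surj b
  have h1 := hA C hC (comapM i C ((stab N).coPt.cl k x))
  change (stab N).coPt.cl k ((stab N).coPt.pwMap k ((HM.proj N).map i) ≫ x) = 0 at h1
  rw [(stab N).cl_eq_zero_iff] at h1
  obtain ⟨m, hm, e⟩ := h1
  rw [← CoPt.tr_nat_assoc, ← proj_pwN] at e
  rw [← CoPt.cl_tr hm x]
  obtain ⟨y, hy⟩ := HM.proj_map_surjective ((stab N).coPt.tr hm _ ≫ x)
  rw [← hy] at e ⊢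
  obtain ⟨g, hg⟩ := exists_factor_cofibre (hCof_pwN m hi) (isCofibre_pwN m hq) y
    ((HM.proj_map_eq_iff _ _).mp e)
  have e3 : (stab N).coPt.cl m ((HM.proj N).map y) =
      comapM q C ((stab N).coPt.cl m ((HM.proj N).map g)) := by
    refine congrArg ((stab N).coPt.cl m) ?_
    refine (HM.sound hg).trans ?_
    refine ((HM.proj N).map_comp (pwN m q) g).trans ?_
    exact congrArg (· ≫ (HM.proj N).map g) (proj_pwN m q)
  refine e3.trans ?_
  rw [hQ C hC ((stab N).coPt.cl m ((HM.proj N).map g))]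
  exact (stab N).comap_zero _ _

end Vale.Agent.P241.H354
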