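import Vale.Agent.P251.H.Grp

/-!
# P241: finite discrete spaces in a `StabInput` category

`pts_bij`: for a finite discrete space `ι`, a morphism `C ⊗ J ι ⟶ X` is a family of morphisms
`C ⟶ X` indexed by `ι`.
-/

open CategoryTheory MonoidalCategory Limits Functor.LaxMonoidal Functor.OplaxMonoidal

namespace Vale.Agent.P241.H354

open Vale.Agent.P251.G Vale.Agent.P251.G.LC Vale.Agent.P251.H
open Vale.Agent.P251.H.StabInput LP

universe v u

variable {M : Type u} [Category.{v} M] [MonoidalCategory M] [SymmetricCategory M]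
    [MonoidalClosed M] [HasZeroMorphisms M] [HasColimitsOfSize.{0, 0} M] [StabInput M]

/-- the inclusion of `C` at a point of the space `K` -/
def ptMap {K : LC} (C : M) (i : K) : C ⟶ C ⊗ (J M).obj K :=
  (ρ_ C).inv ≫ C ◁ (ε (J M) ≫ (J M).map (point i))

theorem ptMap_map {K K' : LC} (C : M) (i : K) (j : K') (f : K ⟶ K') (h : point i ≫ f = point j) :
    ptMap C i ≫ C ◁ (J M).map f = ptMap C j := by
  rw [ptMap, ptMap, Category.assoc, ← MonoidalCategory.whiskerLeft_comp, Category.assoc,
    ← Functor.map_comp, h]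

theorem ptMap_map_assoc {K K' : LC} (C : M) (i : K) (j : K') (f : K ⟶ K')
    (h : point i ≫ f = point j) {Z : M} (g : C ⊗ (J M).obj K' ⟶ Z) :
    ptMap C i ≫ C ◁ (J M).map f ≫ g = ptMap C j ≫ g := by
  rw [← Category.assoc, ptMap_map C i j f h]

theorem ptMap_nat {K : LC} {C D : M} (f : C ⟶ D) (i : K) :
    f ≫ ptMap D i = ptMap C i ≫ f ▷ (J M).obj K := by
  rw [ptMap, ptMap, Category.assoc, whisker_exchange, ← rightUnitor_inv_naturality_assoc]

theorem point_ofHomeo {ι κ : Type} [TopologicalSpace ι] [LocallyCompactSpace ι] [T2Space ι]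
    [TopologicalSpace κ] [LocallyCompactSpace κ] [T2Space κ] (e : ι ≃ₜ κ) (i : ι) :
    point (X := LC.of ι) i ≫ (LC.ofHomeo (X := LC.of ι) (Y := LC.of κ) e).hom =
      point (X := LC.of κ) (e i) := by
  apply LC.hom_ext
  intro x
  rfl

/-- **Morphisms out of `C ⊗ J ι`** for a finite discrete space `ι`. -/
theorem pts_bij (ι : Type) [Finite ι] [TopologicalSpace ι] [DiscreteTopology ι] (C X : M) :
    Function.Bijective
      (fun (f : C ⊗ (J M).obj (LC.of ι) ⟶ X) (i : ι) => ptMap (K := LC.of ι) C i ≫ f) := by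
  revert C X
  suffices H : ∀ [TopologicalSpace ι] [DiscreteTopology ι] (C X : M), Function.Bijective
      (fun (f : C ⊗ (J M).obj (LC.of ι) ⟶ X) (i : ι) => ptMap (K := LC.of ι) C i ≫ f) from
    fun C X => H C X
  refine Finite.induction_empty_option (P := fun ι => ∀ [TopologicalSpace ι]
    [DiscreteTopology ι] (C X : M), Function.Bijective
      (fun (f : C ⊗ (J M).obj (LC.of ι) ⟶ X) (i : ι) => ptMap (K := LC.of ι) C i ≫ f)) ?_ ?_ ?_ ι
  · intro α β e ih _ _ C X
    let _ : TopologicalSpace α := ⊥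
    have : DiscreteTopology α := ⟨rfl⟩
    let h : α ≃ₜ β := ⟨e, continuous_of_discreteTopology, continuous_of_discreteTopology⟩
    let k := LC.ofHomeo (X := LC.of α) (Y := LC.of β) h
    have hk : ∀ i : α, point (X := LC.of α) i ≫ k.hom = point (X := LC.of β) (e i) :=
      fun i => point_ofHomeo h i
    have b := ih (C := C) (X := X)
    constructor
    · intro f g hfg
      have h1 : C ◁ (J M).map k.hom ≫ f = C ◁ (J M).map k.hom ≫ g := by
        apply b.1
        funext i
        change ptMap _ _ ≫ _ ≫ _ = ptMap _ _ ≫ _ ≫ _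
        rw [ptMap_map_assoc C _ _ _ (hk i), ptMap_map_assoc C _ _ _ (hk i)]
        exact congrFun hfg (e i)
      exact (cancel_epi _).mp h1
    · intro F
      obtain ⟨f, hf⟩ := b.2 (fun i => F (e i))
      refine ⟨C ◁ (J M).map k.inv ≫ f, ?_⟩
      funext i
      have hk' : point (X := LC.of β) i ≫ k.inv = point (X := LC.of α) (e.symm i) := by
        rw [Iso.comp_inv_eq, hk, e.apply_symm_apply]
      change ptMap _ _ ≫ _ ≫ _ = _
      rw [ptMap_map_assoc C _ _ _ hk']
      refine (congrFun hf (e.symm i)).trans ?_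
      rw [e.apply_symm_apply]
  · intro _ _ C X
    have hz : IsZero (C ⊗ (J M).obj (LC.of PEmpty)) := by
      refine Vale.Agent.P251.H.isZero_tensor_left (IsZero.of_iso (isZero_empty (M := M)) ((J M).mapIso
        (LC.ofHomeo (X := LC.of PEmpty) (Y := LC.of Empty)
          ⟨Equiv.equivOfIsEmpty _ _, continuous_of_discreteTopology,
            continuous_of_discreteTopology⟩))) C
    refine ⟨fun f g _ => hz.eq_of_src _ _, fun F => ⟨hz.to_ X, ?_⟩⟩
    funext i
    exact i.elim
  · intro α _ ih _ _ C X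
    let _ : TopologicalSpace α := ⊥
    have : DiscreteTopology α := ⟨rfl⟩
    let e : α ⊕ Unit ≃ Option α := (Equiv.optionEquivSumPUnit α).symm
    let h : α ⊕ Unit ≃ₜ Option α :=
      ⟨e, continuous_of_discreteTopology, continuous_of_discreteTopology⟩
    let k := LC.ofHomeo (X := sum (LC.of α) (LC.of Unit)) (Y := LC.of (Option α)) h
    have h1 : ∀ i : α, point (X := LC.of (Option α)) (some i) ≫ k.inv =
        point (X := LC.of α) i ≫ sumInl (LC.of α) (LC.of Unit) := by
      intro i
      rw [Iso.comp_inv_eq]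
      apply LC.hom_ext
      intro x
      rfl
    have h2 : point (X := LC.of (Option α)) none ≫ k.inv =
        sumInr (LC.of α) (LC.of Unit) := by
      rw [Iso.comp_inv_eq]
      apply LC.hom_ext
      intro x
      rfl
    have e1 : ∀ (i : α) (f : C ⊗ (J M).obj (sum (LC.of α) (LC.of Unit)) ⟶ X),
        ptMap (K := LC.of (Option α)) C (some i) ≫ C ◁ (J M).map k.inv ≫ f =
          ptMap (K := LC.of α) C i ≫ C ◁ (J M).map (sumInl (LC.of α) (LC.of Unit)) ≫ f := by
      intro i f
      rw [ptMap, ptMap, Category.assoc, Category.assoc,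
        ← MonoidalCategory.whiskerLeft_comp_assoc, ← MonoidalCategory.whiskerLeft_comp_assoc,
        Category.assoc, Category.assoc, ← Functor.map_comp, ← Functor.map_comp, h1]
    have e2 : ∀ (f : C ⊗ (J M).obj (sum (LC.of α) (LC.of Unit)) ⟶ X),
        ptMap (K := LC.of (Option α)) C none ≫ C ◁ (J M).map k.inv ≫ f =
          (ρ_ C).inv ≫ C ◁ ε (J M) ≫
            C ◁ (J M).map (sumInr (LC.of α) (LC.of Unit)) ≫ f := by
      intro f
      rw [ptMap, Category.assoc, ← MonoidalCategory.whiskerLeft_comp_assoc,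
        ← MonoidalCategory.whiskerLeft_comp_assoc, Category.assoc, ← Functor.map_comp, h2]
    have b := ih (C := C) (X := X)
    constructor
    · intro f g hfg
      have h3 : C ◁ (J M).map k.hom ≫ f = C ◁ (J M).map k.hom ≫ g := by
        have e3 : ∀ f : C ⊗ (J M).obj (LC.of (Option α)) ⟶ X,
            C ◁ (J M).map k.inv ≫ C ◁ (J M).map k.hom ≫ f = f := by
          intro f
          rw [← MonoidalCategory.whiskerLeft_comp_assoc, ← Functor.map_comp, Iso.inv_hom_id,
            CategoryTheory.Functor.map_id, MonoidalCategory.whiskerLeft_id, Category.id_comp]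
        apply tsum_hom_ext
        · apply b.1
          funext i
          change ptMap _ _ ≫ _ ≫ _ = ptMap _ _ ≫ _ ≫ _
          rw [← e1, ← e1, e3, e3]
          exact congrFun hfg (some i)
        · rw [← cancel_epi (C ◁ ε (J M)), ← cancel_epi (ρ_ C).inv, ← e2, ← e2, e3, e3]
          exact congrFun hfg none
      exact (cancel_epi _).mp h3
    · intro F
      obtain ⟨f, hf⟩ := b.2 (fun i => F (some i))
      let g : C ⊗ (J M).obj (LC.of Unit) ⟶ X := C ◁ η (J M) ≫ (ρ_ C).hom ≫ F none
      refine ⟨C ◁ (J M).map k.inv ≫ tdesc f g, ?_⟩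
      funext i
      rcases i with _ | i
      · have e4 : C ◁ (J M).map (sumInr (LC.of α) (LC.of Unit)) ≫ tdesc f g = g := tinr_desc f g
        refine (e2 _).trans ?_
        refine (congrArg (fun z => (ρ_ C).inv ≫ C ◁ ε (J M) ≫ z) e4).trans ?_
        change (ρ_ C).inv ≫ C ◁ ε (J M) ≫ C ◁ η (J M) ≫ (ρ_ C).hom ≫ F none = F none
        rw [← MonoidalCategory.whiskerLeft_comp_assoc, Functor.Monoidal.ε_η,
          MonoidalCategory.whiskerLeft_id, Category.id_comp, Iso.inv_hom_id_assoc]
      · change ptMap _ _ ≫ _ ≫ _ = _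
        rw [e1, tinl_desc]
        exact congrFun hf i

end Vale.Agent.P241.H354
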